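import Vale.Agent.Lib.P087.Main

/-! P087: a finite self-adjoint tuple `X` in a tracial von Neumann algebra with
`-∞ < χ(X) < χ*(X)`. Proof: `Vale/Agent/Lib/P087/PROOF.md`. -/

open P087

theorem Vale.Agent.Results.P087.EntropyGap.result :
    ∃ (H : Type) (_ : NormedAddCommGroup H) (_ : InnerProductSpace ℂ H) (_ : CompleteSpace H)
      (T : TracialVN H) (κ : Type) (_ : Fintype κ) (_ : DecidableEq κ) (X S : κ → H →L[ℂ] H),
      (∀ j, X j ∈ T.M ∧ IsSelfAdjoint (X j)) ∧ (∀ j, S j ∈ T.M ∧ IsSelfAdjoint (S j)) ∧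
      FreeSemicircularFrom T X S ∧ ⊥ < chi T X ∧ chi T X < chiStar T X S :=
  P087.answer
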