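import Vale.Agent.Lib.P087.Main
import Vale.Agent.Lib.P087.CR

/-! P087, second statement: the same with `χ*(X) < ∞` and a nonempty index set. -/

open P087

theorem Vale.Agent.Results.P087.FiniteGap.result :
    ∃ (H : Type) (_ : NormedAddCommGroup H) (_ : InnerProductSpace ℂ H) (_ : CompleteSpace H)
      (T : TracialVN H) (κ : Type) (_ : Fintype κ) (_ : DecidableEq κ) (X S : κ → H →L[ℂ] H),
      1 ≤ Fintype.card κ ∧
      (∀ j, X j ∈ T.M ∧ IsSelfAdjoint (X j)) ∧ (∀ j, S j ∈ T.M ∧ IsSelfAdjoint (S j)) ∧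
      FreeSemicircularFrom T X S ∧
      (⊥ < chi T X ∧ chi T X < ⊤) ∧ (⊥ < chiStar T X S ∧ chiStar T X S < ⊤) ∧
      chi T X ≠ chiStar T X S ∧ chi T X < chiStar T X S := by
  obtain ⟨r, hr⟩ : ∃ r : ℕ, r = 10 ^ 12 := ⟨_, rfl⟩
  obtain ⟨H, i1, i2, i3, T, ⟨F⟩⟩ := exists_fock (Let r)
  have h1 : chi T (Xop F 0) < chiStar T (Xop F 0) (fun i => F.y (out i)) :=
    lt_of_le_of_lt (chi_le F) (chiStar_gt_of_hid F hr fun q _ a =>
      ⟨XiC F a, inner_XiC_X F q a, norm_XiC F a⟩)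
  have h2 : ⊥ < chi T (Xop F 0) := chi_gt_bot F
  have h3 : chiStar T (Xop F 0) (fun i => F.y (out i)) < ⊤ :=
    chiStar_lt_top T _ _ (Xop_sa F 0) (fun j => F.y_sa _) (free_semicircular F)
  refine ⟨H, i1, i2, i3, T, K r, inferInstance, inferInstance, Xop F 0, fun i => F.y (out i), ?_,
    fun j => ⟨Xop_mem F 0 j, Xop_sa F 0 j⟩, fun j => ⟨F.y_mem _, F.y_sa _⟩,
    free_semicircular F, ⟨h2, h1.trans h3⟩, ⟨h2.trans h1, h3⟩, h1.ne, h1⟩
  rw [Fintype.card_sum, Fintype.card_fin, hr]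
  exact le_trans (by norm_num) (Nat.le_add_right _ _)
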