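import Vale.Agent.Lib.P087.C.Bridge3

/-! P087: the difference of the two free entropies is unbounded on tuples with `χ > -∞`. -/

open P087C

theorem Vale.Agent.Results.P087.UnboundedGap.result (C : ℝ) :
    ∃ (H : Type) (_ : NormedAddCommGroup H) (_ : InnerProductSpace ℂ H) (_ : CompleteSpace H)
      (M : VonNeumannAlgebra H) (Ω : H) (n : ℕ) (X S : Fin n → H →L[ℂ] H),
      IsTracial M Ω ∧ 1 ≤ n ∧ (∀ j, X j ∈ M ∧ IsSelfAdjoint (X j)) ∧
      (∀ j, S j ∈ M ∧ IsSelfAdjoint (S j)) ∧ IsSemicircularNoise Ω X S ∧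
      ⊥ < chi Ω X ∧ chi Ω X + (C : EReal) < chiStar Ω X S :=
  P087C.unbounded_gap C
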